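import Vale.Agent.P225.Ode.Scalar

/-!
P225, module 8 (helper2): uniqueness, the difference identity of two slopes, the two-point lemma
and the quasi-static slope `alphaFn`.
-/

open MeasureTheory Set Filter Topology

namespace Vale.Agent.P225.Ode

noncomputable section

variable {κ e c z l : ℝ → ℝ} {a b k E : ℝ}

/-- Uniqueness for `y' = -κ y - e`. -/
theorem eq_linSol {y : ℝ → ℝ} (hκ : Continuous κ) (he : Continuous e)
    (hy : ∀ t ∈ Icc a b, HasDerivAt y (-κ t * y t - e t) t) :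
    ∀ t ∈ Icc a b, y t = linSol κ e a (y a) t := by
  have hd : ∀ t ∈ Icc a b,
      HasDerivAt (fun s => Real.exp (prim κ a s) * (y s - linSol κ e a (y a) s)) 0 t := by
    intro t ht
    refine ((hasDerivAt_prim hκ a t).exp.mul
      ((hy t ht).sub (hasDerivAt_linSol hκ he a (y a) t))).congr_deriv ?_
    simp only [Pi.sub_apply]
    ring
  intro t ht
  have := constant_of_has_deriv_right_zero
    (fun s hs => (hd s hs).continuousAt.continuousWithinAt)
    (fun s hs => (hd s (Ico_subset_Icc_self hs)).hasDerivWithinAt) t ht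
  simp only [prim_self, Real.exp_zero, linSol_self, sub_self, mul_zero, mul_eq_zero,
    Real.exp_ne_zero, false_or] at this
  linarith

/-- The difference of two slopes solves a linear equation. -/
theorem slope_sub_eq {z₁ z₂ l₁ l₂ : ℝ → ℝ} (hc : Continuous c) (hz₁ : Continuous z₁)
    (hz₂ : Continuous z₂) (hl₁ : Continuous l₁) (hl₂ : Continuous l₂)
    (h₁ : ∀ t ∈ Icc a b, ∃ z', HasDerivAt z₁ z' t ∧ z' + z₁ t ^ 2 + c t * z₁ t = l₁ t)
    (h₂ : ∀ t ∈ Icc a b, ∃ z', HasDerivAt z₂ z' t ∧ z' + z₂ t ^ 2 + c t * z₂ t = l₂ t) :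
    ∀ t ∈ Icc a b, z₁ t - z₂ t
      = linSol (fun s => z₁ s + z₂ s + c s) (fun s => l₂ s - l₁ s) a (z₁ a - z₂ a) t := by
  refine eq_linSol (y := fun s => z₁ s - z₂ s) (by fun_prop) (by fun_prop) fun t ht => ?_
  obtain ⟨p, hp, ep⟩ := h₁ t ht
  obtain ⟨q, hq, eq⟩ := h₂ t ht
  refine (hp.sub hq).congr_deriv ?_
  linear_combination ep - eq

/-- Slopes are Lipschitz in the datum and in the eigenvalue. -/
theorem abs_slope_sub_le {z₁ z₂ l₁ l₂ : ℝ → ℝ} (hc : Continuous c) (hz₁ : Continuous z₁)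
    (hz₂ : Continuous z₂) (hl₁ : Continuous l₁) (hl₂ : Continuous l₂) (hk : 0 < k)
    (hkz : ∀ t ∈ Icc a b, k ≤ z₁ t + z₂ t + c t)
    (hE : ∀ t ∈ Icc a b, |l₁ t - l₂ t| ≤ E)
    (h₁ : ∀ t ∈ Icc a b, ∃ z', HasDerivAt z₁ z' t ∧ z' + z₁ t ^ 2 + c t * z₁ t = l₁ t)
    (h₂ : ∀ t ∈ Icc a b, ∃ z', HasDerivAt z₂ z' t ∧ z' + z₂ t ^ 2 + c t * z₂ t = l₂ t) :
    ∀ t ∈ Icc a b, |z₁ t - z₂ t| ≤ |z₁ a - z₂ a| * Real.exp (-(k * (t - a))) + E / k := by
  intro t ht
  rw [slope_sub_eq hc hz₁ hz₂ hl₁ hl₂ h₁ h₂ t ht]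
  refine abs_linSol_le (by fun_prop) (by fun_prop) hk ht.1
    (fun s hs => hkz s ⟨hs.1, hs.2.trans ht.2⟩) fun s hs => ?_
  rw [abs_sub_comm]
  exact hE s ⟨hs.1, hs.2.trans ht.2⟩

/-- Two-point lemma: a solution of the second order equation is given by the scattering
coefficients of any slope `z`. -/
theorem two_point {u du : ℝ → ℝ} (hc : Continuous c) (hz : Continuous z) (hab : a ≤ b)
    (hzd : ∀ t ∈ Icc a b, ∃ z', HasDerivAt z z' t ∧ z' + z t ^ 2 + c t * z t = l t)
    (hu : ∀ t ∈ Icc a b, HasDerivAt u (du t) t)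
    (hdu : ∀ t ∈ Icc a b, HasDerivAt du (l t * u t - c t * du t) t) :
    u a = coefQ z a b * u b + coefB c z a b * (du a - z a * u a) ∧
      du b - z b * u b = coefD c z a b * (du a - z a * u a) := by
  have hw : ∀ t ∈ Icc a b, HasDerivAt (fun s => du s - z s * u s)
      (-(c t + z t) * (du t - z t * u t) - 0) t := by
    intro t ht
    obtain ⟨p, hp, ep⟩ := hzd t ht
    refine ((hdu t ht).sub (hp.mul (hu t ht))).congr_deriv ?_
    linear_combination (-(u t)) * ep
  have hwe : ∀ t ∈ Icc a b, du t - z t * u t = devSol c z a (du a - z a * u a) t := by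
    intro t ht
    rw [eq_linSol (κ := fun s => c s + z s) (e := fun _ => 0) (y := fun s => du s - z s * u s)
      (hc.add hz) continuous_const hw t ht, linSol_zero]
    rfl
  have hb := right_mem_Icc.2 hab
  have hright : du b - z b * u b = coefD c z a b * (du a - z a * u a) := by
    rw [hwe b hb, devSol_right]
  refine ⟨?_, hright⟩
  set W := du a - z a * u a
  have hd : ∀ t ∈ Icc a b, HasDerivAt (fun s => Real.exp (-prim z b s) * (u s - uSol c z a b (u b) W s)) 0 t := by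
    intro t ht
    refine ((hasDerivAt_prim hz b t).neg.exp.mul
      ((hu t ht).sub (hasDerivAt_uSol hc hz a b (u b) W t))).congr_deriv ?_
    simp only [Pi.sub_apply, Pi.neg_apply]
    linear_combination Real.exp (-prim z b t) * (hwe t ht)
  have := constant_of_has_deriv_right_zero
    (fun s hs => (hd s hs).continuousAt.continuousWithinAt)
    (fun s hs => (hd s (Ico_subset_Icc_self hs)).hasDerivWithinAt) b hb
  simp only [prim_self, neg_zero, Real.exp_zero, uSol_self, sub_self, mul_zero] at this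
  have h0 := this.symm
  simp only [mul_eq_zero, Real.exp_ne_zero, false_or] at h0
  rw [← uSol_left hz]
  linarith

/-! ### The quasi-static slope -/

/-- Positive root of `x² + c x = l`. -/
def alphaFn (c l : ℝ) : ℝ := (Real.sqrt (c ^ 2 + 4 * l) - c) / 2

theorem alphaFn_nonneg {c l : ℝ} (hl : 0 ≤ l) : 0 ≤ alphaFn c l := by
  have := Real.abs_le_sqrt (x := c) (y := c ^ 2 + 4 * l) (by linarith)
  unfold alphaFn
  linarith [le_abs_self c]

theorem two_alphaFn_add (c l : ℝ) : 2 * alphaFn c l + c = Real.sqrt (c ^ 2 + 4 * l) := by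
  unfold alphaFn; ring

theorem alphaFn_eq {c l : ℝ} (hl : 0 ≤ l) : alphaFn c l ^ 2 + c * alphaFn c l = l := by
  have := Real.sq_sqrt (by positivity : 0 ≤ c ^ 2 + 4 * l)
  unfold alphaFn
  linear_combination (1 / 4 : ℝ) * this

theorem alphaFn_le_sqrt {c l : ℝ} (hc : 0 ≤ c) (hl : 0 ≤ l) : alphaFn c l ≤ Real.sqrt l := by
  refine Real.le_sqrt_of_sq_le ?_
  nlinarith [alphaFn_eq (c := c) hl, alphaFn_nonneg (c := c) hl]

theorem alphaFn_mono {c l l' : ℝ} (h : l ≤ l') : alphaFn c l ≤ alphaFn c l' := by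
  unfold alphaFn
  linarith [Real.sqrt_le_sqrt (by linarith : c ^ 2 + 4 * l ≤ c ^ 2 + 4 * l')]

/-- The quasi-static slope moves slowly when its data do. -/
theorem hasDerivAt_alphaFn {c l : ℝ → ℝ} {t c' l' : ℝ} (hc : HasDerivAt c c' t)
    (hl : HasDerivAt l l' t) (hc0 : 0 < c t) (hl0 : 0 ≤ l t) :
    HasDerivAt (fun s => alphaFn (c s) (l s))
      ((l' - alphaFn (c t) (l t) * c') / (2 * alphaFn (c t) (l t) + c t)) t := by
  have hne : c t ^ 2 + 4 * l t ≠ 0 := by nlinarith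
  refine ((((hc.pow 2).add (hl.const_mul 4)).sqrt hne).sub hc |>.div_const 2).congr_deriv ?_
  have hpos : 0 < Real.sqrt (c t ^ 2 + 4 * l t) := Real.sqrt_pos.2 (by nlinarith)
  rw [two_alphaFn_add]
  unfold alphaFn
  simp only [Pi.add_apply, Pi.pow_apply]
  field_simp
  push_cast
  ring

end

end Vale.Agent.P225.Ode
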