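import Vale.Agent.P225.Seg.Diag

/-!
P225, module 8 (helper2): slope families for slowly varying data.

If on `[a,b]` the drift `c ∈ [4,6]` and the eigenvalues `l i` move slowly (`|c'| ≤ η`,
`|l i'| ≤ η * l i`), then every state has a slope which stays within `3η` of the quasi-static
slope `alphaFn (c t) (l i t)`; uniformly in the state and in the length of the interval.
-/

open Set

namespace Vale.Agent.P225

noncomputable section

namespace Ode

variable {a b m η : ℝ} {c c' l l' : ℝ → ℝ}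

/-- One mode. -/
theorem exists_slope_alphaFn (hab : a ≤ b) (hc : ∀ t, HasDerivAt c (c' t) t) (hc' : Continuous c')
    (hl : ∀ t, HasDerivAt l (l' t) t) (hl' : Continuous l') (hc0 : ∀ t, 0 < c t)
    (hl0 : ∀ t, 0 ≤ l t) (hη : 0 ≤ η) (hη' : η ≤ 1 / 10) (hc4 : ∀ t ∈ Icc a b, 4 ≤ c t)
    (hcs : ∀ t ∈ Icc a b, |c' t| ≤ η) (hls : ∀ t ∈ Icc a b, |l' t| ≤ η * l t)
    {y₀ : ℝ} (hy : |y₀ - alphaFn (c a) (l a)| ≤ η) :
    ∃ z : ℝ → ℝ, Continuous z ∧ z a = y₀ ∧
      (∀ t ∈ Icc a b, |z t - alphaFn (c t) (l t)| ≤ 3 * η) ∧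
      ∀ t ∈ Icc a b, ∃ z', HasDerivAt z z' t ∧ z' + z t ^ 2 + c t * z t = l t := by
  set α := fun t => alphaFn (c t) (l t)
  set α' := fun t => (l' t - α t * c' t) / (2 * α t + c t)
  have hd : ∀ t, HasDerivAt α (α' t) t := fun t =>
    hasDerivAt_alphaFn (hc t) (hl t) (hc0 t) (hl0 t)
  have hac : Continuous α := continuous_iff_continuousAt.2 fun t => (hd t).continuousAt
  have hcc : Continuous c := continuous_iff_continuousAt.2 fun t => (hc t).continuousAt
  have hα0 : ∀ t, 0 ≤ α t := fun t => alphaFn_nonneg (hl0 t)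
  have hpos : ∀ t, 0 < 2 * α t + c t := fun t => by linarith [hα0 t, hc0 t]
  have hαc' : Continuous α' :=
    (hl'.sub (hac.mul hc')).div ((hac.const_mul 2).add hcc) fun t => (hpos t).ne'
  obtain ⟨r, hr, hra, hrR, -, hrd⟩ := exists_riccati_rel (κ := fun t => 2 * α t + c t) (e := α')
    (y₀ := y₀ - α a) (k := 4) (R := 3 * η) (M := η) hab ((hac.const_mul 2).add hcc) hαc'
    (by norm_num) (fun t ht => by linarith [hα0 t, hc4 t ht]) (fun t ht => by
      have heq : α t ^ 2 + c t * α t = l t := alphaFn_eq (hl0 t)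
      simp only [α']
      rw [abs_div, abs_of_pos (hpos t), div_le_iff₀ (hpos t)]
      refine (abs_sub _ _).trans ?_
      rw [abs_mul, abs_of_nonneg (hα0 t)]
      have ha := hα0 t
      have hc := hc4 t ht
      have h1 : α t * |c' t| ≤ α t * η := mul_le_mul_of_nonneg_left (hcs t ht) ha
      have h2 : α t ^ 2 + c t * α t + α t ≤ (2 * α t + c t) * (2 * α t + c t) := by nlinarith
      calc |l' t| + α t * |c' t| ≤ η * (α t ^ 2 + c t * α t + α t) := by
            have h3 : |l' t| ≤ η * (α t ^ 2 + c t * α t) := by rw [heq]; exact hls t ht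
            linarith
        _ ≤ η * ((2 * α t + c t) * (2 * α t + c t)) := mul_le_mul_of_nonneg_left h2 hη
        _ = η * (2 * α t + c t) * (2 * α t + c t) := by ring)
    hη (by positivity) (by nlinarith) (by linarith)
  refine ⟨fun t => α t + r t, hac.add hr, by simp [hra], fun t ht => by simpa [α] using hrR t ht,
    fun t ht => riccati_shift (l := l t) (hd t) ((hrd t ht).congr_deriv ?_)⟩
  have heq : α t ^ 2 + c t * α t = l t := alphaFn_eq (hl0 t)
  linear_combination heq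

end Ode

theorem mu_eq_one_or_two_le (V : Blk) : V.mu = 1 ∨ 2 ≤ V.mu := by
  unfold Blk.mu
  rcases Nat.eq_zero_or_pos (V.la + V.lb + V.lc) with h | h
  · left
    obtain ⟨h1, h2, h3⟩ : V.la = 0 ∧ V.lb = 0 ∧ V.lc = 0 := by omega
    simp [h1, h2, h3]
  · right
    have : (1 : ℝ) ≤ ((V.la + V.lb + V.lc : ℕ) : ℝ) := by exact_mod_cast h
    push_cast at this
    linarith

/-- Slope families for slowly varying data (all states at once). -/
theorem exists_slopeFam {a b m η : ℝ} {c c' : ℝ → ℝ} {l l' : St → ℝ → ℝ} {y₀ ρ : St → ℝ}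
    (hab : a ≤ b) (hc : ∀ t, HasDerivAt c (c' t) t) (hc' : Continuous c')
    (hl : ∀ i t, HasDerivAt (l i) (l' i t) t) (hl' : ∀ i, Continuous (l' i))
    (hc0 : ∀ t, 0 < c t) (hl0 : ∀ i t, 0 ≤ l i t)
    (hm : 0 < m) (hm1 : m ≤ 1) (hη : 0 ≤ η) (hηm : η ≤ m / 30)
    (hc4 : ∀ t ∈ Icc a b, 4 ≤ c t) (hc6 : ∀ t ∈ Icc a b, c t ≤ 6)
    (hcs : ∀ t ∈ Icc a b, |c' t| ≤ η) (hls : ∀ i, ∀ t ∈ Icc a b, |l' i t| ≤ η * l i t)
    (hzero : ∀ i : St, i.blk.mu = 1 → (∀ t, l i t = 0) ∧ y₀ i = 0)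
    (hlow : ∀ i, ∀ t ∈ Icc a b, m * (i.blk.mu - 1) ^ 2 ≤ l i t)
    (hy : ∀ i, |y₀ i - Ode.alphaFn (c a) (l i a)| ≤ η)
    (hρ : ∀ i, |ρ i - Ode.alphaFn (c b) (l i b)| ≤ η) :
    ∃ z : St → ℝ → ℝ, (∀ i, z i a = y₀ i) ∧
      (∀ i, ∀ t ∈ Icc a b, |z i t - Ode.alphaFn (c t) (l i t)| ≤ 3 * η) ∧
      (∀ i, ∀ t ∈ Icc a b, ∃ z', HasDerivAt (z i) z' t ∧ z' + z i t ^ 2 + c t * z i t = l i t) ∧
      SlopeFam a b c z ρ (Real.sqrt m) (4 * η) := by
  have hex : ∀ i : St, ∃ z : ℝ → ℝ, Continuous z ∧ z a = y₀ i ∧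
      (∀ t ∈ Icc a b, 0 ≤ z t) ∧
      (∀ t ∈ Icc a b, |z t - Ode.alphaFn (c t) (l i t)| ≤ 3 * η) ∧
      ∀ t ∈ Icc a b, ∃ z', HasDerivAt z z' t ∧ z' + z t ^ 2 + c t * z t = l i t := by
    intro i
    rcases mu_eq_one_or_two_le i.blk with h1 | h2
    · obtain ⟨hz, hy0⟩ := hzero i h1
      refine ⟨fun _ => 0, continuous_const, hy0.symm, fun _ _ => le_rfl, fun t ht => ?_,
        fun t _ => ⟨0, hasDerivAt_const t 0, by simp [hz]⟩⟩
      have h4 : 0 ≤ c t := (hc0 t).le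
      simp [hz, Ode.alphaFn, Real.sqrt_sq h4, hη]
    · obtain ⟨z, hz, hza, hzc, hzd⟩ := Ode.exists_slope_alphaFn hab hc hc' (hl i) (hl' i) hc0
        (hl0 i) hη (by linarith) hc4 hcs (hls i) (hy i)
      refine ⟨z, hz, hza, fun t ht => ?_, hzc, hzd⟩
      have hαn := Ode.alphaFn_nonneg (c := c t) (hl0 i t)
      have heq := Ode.alphaFn_eq (c := c t) (hl0 i t)
      have h3 := abs_le.1 (hzc t ht)
      have hX : 1 ≤ (i.blk.mu - 1) ^ 2 := one_le_pow₀ (by linarith)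
      have hl1 : m ≤ l i t := (le_mul_of_one_le_right hm.le hX).trans (hlow i t ht)
      rcases le_total 1 (Ode.alphaFn (c t) (l i t)) with h | h
      · linarith
      · nlinarith [hc6 t ht]
  choose z hz hza hz0 hzc hzd using hex
  refine ⟨z, hza, hzc, hzd, ⟨hab, Real.sqrt_pos.2 hm, by positivity,
    continuous_iff_continuousAt.2 fun t => (hc t).continuousAt, hz, hz0,
    fun t ht => by linarith [hc4 t ht], fun i t ht => ?_, fun i => ?_⟩⟩
  · have h1 := abs_le.1 (hzc i t ht)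
    have h2 := Ode.two_alphaFn_add (c t) (l i t)
    set X := i.blk.mu - 1 with hX
    have hX0 : 0 ≤ X := by have := Blk.one_le_mu i.blk; linarith
    have hsm : Real.sqrt m * (X + 1) * (7 / 5) ≤ Real.sqrt (c t ^ 2 + 4 * l i t) := by
      refine Real.le_sqrt_of_sq_le ?_
      rw [mul_pow, mul_pow, Real.sq_sqrt hm.le]
      nlinarith [hlow i t ht, hc4 t ht, sq_nonneg (X - 1), mul_nonneg hm.le hX0,
        mul_nonneg hm.le (sq_nonneg (X - 1))]
    have hms : m ≤ Real.sqrt m := Real.le_sqrt_of_sq_le (by nlinarith)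
    have : i.blk.mu = X + 1 := by simp [hX]
    rw [this]
    nlinarith [mul_nonneg (Real.sqrt_nonneg m) hX0]
  · refine le_trans ?_ (le_mul_of_one_le_right (by positivity) (Blk.one_le_mu _))
    have h1 := abs_le.1 (hzc i b (right_mem_Icc.2 hab))
    have h2 := abs_le.1 (hρ i)
    rw [abs_le]
    constructor <;> linarith

end

end Vale.Agent.P225
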