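import Mathlib

/-!
P225, module 8 (helper2): scalar segments by the Riccati substitution.

`linSol κ e a y₀` solves `y' = -κ y - e`, `y a = y₀`.  A small solution of the Riccati equation
`r' = -κ r - e - r²` is the fixed point of the corresponding integral map.  With `z = ρ₀ + r` the
equation `u'' + (5+v) u' = λ u` becomes triangular: `u' = z u + w`, `w' = -(5+v+z) w`.
-/

open MeasureTheory Set Filter Topology

namespace Vale.Agent.P225.Ode

noncomputable section

/-- Primitive of `κ` vanishing at `a`. -/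
def prim (κ : ℝ → ℝ) (a t : ℝ) : ℝ := ∫ s in a..t, κ s

/-- Solution of `y' = -κ y - e` with value `y₀` at `a`. -/
def linSol (κ e : ℝ → ℝ) (a y₀ t : ℝ) : ℝ :=
  Real.exp (-prim κ a t) * (y₀ - ∫ s in a..t, Real.exp (prim κ a s) * e s)

variable {κ e : ℝ → ℝ} {a b y₀ k E : ℝ}

theorem hasDerivAt_prim (hκ : Continuous κ) (a t : ℝ) : HasDerivAt (prim κ a) (κ t) t :=
  hκ.integral_hasStrictDerivAt a t |>.hasDerivAt

theorem continuous_prim (hκ : Continuous κ) (a : ℝ) : Continuous (prim κ a) :=
  continuous_iff_continuousAt.2 fun t => (hasDerivAt_prim hκ a t).continuousAt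

@[simp] theorem prim_self (κ : ℝ → ℝ) (a : ℝ) : prim κ a a = 0 := intervalIntegral.integral_same

theorem prim_le_prim {c d : ℝ} (hκ : Continuous κ) (h : ∀ t ∈ Icc c d, k ≤ κ t) (hcd : c ≤ d) :
    k * (d - c) + prim κ a c ≤ prim κ a d := by
  have e1 : prim κ a d - prim κ a c = ∫ s in c..d, κ s :=
    intervalIntegral.integral_interval_sub_left (hκ.intervalIntegrable _ _)
      (hκ.intervalIntegrable _ _)
  have e2 : ∫ _ in c..d, k = k * (d - c) := by simp [mul_comm]
  have e3 : ∫ _ in c..d, k ≤ ∫ s in c..d, κ s :=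
    intervalIntegral.integral_mono_on hcd (continuous_const.intervalIntegrable _ _)
      (hκ.intervalIntegrable _ _) h
  linarith

@[simp] theorem linSol_self (κ e : ℝ → ℝ) (a y₀ : ℝ) : linSol κ e a y₀ a = y₀ := by
  simp [linSol]

theorem hasDerivAt_linSol (hκ : Continuous κ) (he : Continuous e) (a y₀ t : ℝ) :
    HasDerivAt (linSol κ e a y₀) (-κ t * linSol κ e a y₀ t - e t) t := by
  have h1 := ((hasDerivAt_prim hκ a t).neg).exp
  have hc : Continuous fun s => Real.exp (prim κ a s) * e s :=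
    (Real.continuous_exp.comp (continuous_prim hκ a)).mul he
  have h2 : HasDerivAt (fun t => y₀ - ∫ s in a..t, Real.exp (prim κ a s) * e s)
      (-(Real.exp (prim κ a t) * e t)) t :=
    ((hc.integral_hasStrictDerivAt a t).hasDerivAt).const_sub y₀
  refine (h1.mul h2).congr_deriv ?_
  have : Real.exp (-prim κ a t) * Real.exp (prim κ a t) = 1 := by
    rw [← Real.exp_add]; simp
  simp only [linSol, Pi.neg_apply]
  linear_combination (-(e t)) * this

theorem continuous_linSol (hκ : Continuous κ) (he : Continuous e) (a y₀ : ℝ) :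
    Continuous (linSol κ e a y₀) :=
  continuous_iff_continuousAt.2 fun t => (hasDerivAt_linSol hκ he a y₀ t).continuousAt

theorem linSol_sub {e' : ℝ → ℝ} {y₁ : ℝ} (hκ : Continuous κ) (he : Continuous e)
    (he' : Continuous e') (t : ℝ) :
    linSol κ e a y₀ t - linSol κ e' a y₁ t = linSol κ (fun s => e s - e' s) a (y₀ - y₁) t := by
  have hp : Continuous fun s => Real.exp (prim κ a s) := Real.continuous_exp.comp (continuous_prim hκ a)
  simp only [linSol, mul_sub]
  rw [intervalIntegral.integral_sub (f := fun s => Real.exp (prim κ a s) * e s)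
    (g := fun s => Real.exp (prim κ a s) * e' s) ((hp.mul he).intervalIntegrable _ _)
    ((hp.mul he').intervalIntegrable _ _)]
  ring

/-- The relative bound: forcing dominated by `M` times the gain. -/
theorem abs_linSol_le_rel (hκ : Continuous κ) (_he : Continuous e) {t M : ℝ} (hat : a ≤ t)
    (hM : 0 ≤ M) (hκk : ∀ s ∈ Icc a t, k ≤ κ s) (heM : ∀ s ∈ Icc a t, |e s| ≤ M * κ s) :
    |linSol κ e a y₀ t| ≤ |y₀| * Real.exp (-(k * (t - a))) + M := by
  have hp : Continuous fun s => Real.exp (prim κ a s) := Real.continuous_exp.comp (continuous_prim hκ a)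
  have hint : |∫ s in a..t, Real.exp (prim κ a s) * e s|
      ≤ ∫ s in a..t, M * (Real.exp (prim κ a s) * κ s) := by
    rw [← Real.norm_eq_abs]
    refine intervalIntegral.norm_integral_le_of_norm_le hat ?_
      ((continuous_const.mul (hp.mul hκ)).intervalIntegrable _ _)
    refine Eventually.of_forall fun s hs => ?_
    rw [norm_mul, Real.norm_eq_abs, Real.norm_eq_abs, Real.abs_exp]
    nlinarith [heM s (Ioc_subset_Icc_self hs), Real.exp_pos (prim κ a s)]
  have hftc : ∫ s in a..t, Real.exp (prim κ a s) * κ s = Real.exp (prim κ a t) - 1 := by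
    rw [intervalIntegral.integral_eq_sub_of_hasDerivAt
      (fun s _ => (hasDerivAt_prim hκ a s).exp) ((hp.mul hκ).intervalIntegrable _ _)]
    simp
  rw [intervalIntegral.integral_const_mul, hftc] at hint
  have hdec : Real.exp (-prim κ a t) ≤ Real.exp (-(k * (t - a))) := by
    have := prim_le_prim (a := a) hκ hκk hat
    simp only [prim_self, add_zero] at this
    exact Real.exp_le_exp.2 (by linarith)
  have hone : Real.exp (-prim κ a t) * Real.exp (prim κ a t) = 1 := by
    rw [← Real.exp_add]; simp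
  rw [linSol, abs_mul, Real.abs_exp]
  have hpos := Real.exp_pos (-prim κ a t)
  calc Real.exp (-prim κ a t) * |y₀ - ∫ s in a..t, Real.exp (prim κ a s) * e s|
      ≤ Real.exp (-prim κ a t) * (|y₀| + M * (Real.exp (prim κ a t) - 1)) := by
        gcongr
        exact (abs_sub _ _).trans (by linarith)
    _ ≤ |y₀| * Real.exp (-(k * (t - a))) + M := by
        have h3 : Real.exp (-prim κ a t) * |y₀| ≤ |y₀| * Real.exp (-(k * (t - a))) := by
          nlinarith [abs_nonneg y₀]
        have h4 : 0 ≤ M * Real.exp (-prim κ a t) := by positivity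
        have h5 : Real.exp (-prim κ a t) * (M * (Real.exp (prim κ a t) - 1))
            = M - M * Real.exp (-prim κ a t) := by linear_combination M * hone
        nlinarith [h3, h4, h5]

/-- The basic bound: exponential decay of the datum plus `sup|e| / k`. -/
theorem abs_linSol_le (hκ : Continuous κ) (he : Continuous e) (hk : 0 < k) {t : ℝ} (hat : a ≤ t)
    (hκk : ∀ s ∈ Icc a t, k ≤ κ s) (heE : ∀ s ∈ Icc a t, |e s| ≤ E) :
    |linSol κ e a y₀ t| ≤ |y₀| * Real.exp (-(k * (t - a))) + E / k := by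
  have hE : 0 ≤ E := (abs_nonneg _).trans (heE a (left_mem_Icc.2 hat))
  refine abs_linSol_le_rel hκ he hat (div_nonneg hE hk.le) hκk fun s hs => (heE s hs).trans ?_
  calc E = E / k * k := by field_simp
    _ ≤ E / k * κ s := mul_le_mul_of_nonneg_left (hκk s hs) (div_nonneg hE hk.le)

/-- Without forcing the solution is the exponential. -/
theorem linSol_zero (κ : ℝ → ℝ) (a y₀ t : ℝ) :
    linSol κ (fun _ => 0) a y₀ t = y₀ * Real.exp (-prim κ a t) := by
  simp [linSol, mul_comm]

/-! ### Riccati -/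

/-- Truncation to `[-R, R]`. -/
def trunc (R x : ℝ) : ℝ := max (-R) (min R x)

theorem abs_trunc_le {R : ℝ} (hR : 0 ≤ R) (x : ℝ) : |trunc R x| ≤ R := by
  rw [abs_le]
  exact ⟨le_max_left _ _, max_le (by linarith) (min_le_left _ _)⟩

theorem trunc_of_abs_le {R x : ℝ} (h : |x| ≤ R) : trunc R x = x := by
  rw [abs_le] at h
  rw [trunc, min_eq_right h.2, max_eq_right h.1]

theorem abs_trunc_sub (R x y : ℝ) : |trunc R x - trunc R y| ≤ |x - y| := by
  have h1 := abs_max_sub_max_le_abs (min R x) (min R y) (-R)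
  have h2 := abs_min_sub_min_le_max R x R y
  simp only [sub_self, abs_zero] at h2
  rw [trunc, trunc, max_comm (-R), max_comm (-R)]
  exact h1.trans (h2.trans (max_le (abs_nonneg _) le_rfl))

theorem continuous_trunc (R : ℝ) : Continuous (trunc R) := by
  unfold trunc; fun_prop

theorem abs_trunc_sq_sub {R : ℝ} (hR : 0 ≤ R) (x y : ℝ) :
    |trunc R x ^ 2 - trunc R y ^ 2| ≤ 2 * R * |x - y| := by
  rw [sq_sub_sq, abs_mul]
  have h1 : |trunc R x + trunc R y| ≤ 2 * R :=
    (abs_add_le _ _).trans (by linarith [abs_trunc_le hR x, abs_trunc_le hR y])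
  exact mul_le_mul h1 (abs_trunc_sub R x y) (abs_nonneg _) (by linarith)

/-- A small solution of `r' = -κ r - e - r²` on `[a, b]` with given left value, the residual being
dominated by `M` times the gain. -/
theorem exists_riccati_rel (hab : a ≤ b) (hκ : Continuous κ) (he : Continuous e) (hk : 0 < k)
    {R M : ℝ} (hκk : ∀ s ∈ Icc a b, k ≤ κ s) (heM : ∀ s ∈ Icc a b, |e s| ≤ M * κ s)
    (hM : 0 ≤ M) (hR : 0 ≤ R) (hsmall : |y₀| + M + R ^ 2 / k ≤ R) (hRk : 2 * R < k) :
    ∃ r : ℝ → ℝ, Continuous r ∧ r a = y₀ ∧ (∀ t ∈ Icc a b, |r t| ≤ R) ∧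
      (∀ t ∈ Icc a b, r t = linSol κ (fun s => e s + r s ^ 2) a y₀ t) ∧
      ∀ t ∈ Icc a b, HasDerivAt r (-κ t * r t - e t - r t ^ 2) t := by
  let q : C(Icc a b, ℝ) → ℝ → ℝ := fun f s => e s + trunc R (IccExtend hab f s) ^ 2
  have hq : ∀ f, Continuous (q f) := fun f =>
    he.add (((continuous_trunc R).comp (f.continuous.Icc_extend')).pow 2)
  let T : C(Icc a b, ℝ) → C(Icc a b, ℝ) := fun f =>
    ⟨fun t => linSol κ (q f) a y₀ t, (continuous_linSol hκ (hq f) a y₀).comp continuous_subtype_val⟩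
  have hK : (2 * R / k).toNNReal < 1 := by
    rw [Real.toNNReal_lt_one]; rw [div_lt_one hk]; exact hRk
  have hT : ContractingWith (2 * R / k).toNNReal T := by
    refine ⟨hK, LipschitzWith.of_dist_le_mul fun f g => ?_⟩
    rw [Real.coe_toNNReal _ (by positivity)]
    rw [ContinuousMap.dist_le (by positivity)]
    intro t
    simp only [T, ContinuousMap.coe_mk, Real.dist_eq]
    rw [linSol_sub hκ (hq f) (hq g)]
    refine (abs_linSol_le (E := 2 * R * dist f g) hκ ((hq f).sub (hq g)) hk t.2.1
      (fun s hs => hκk s ⟨hs.1, hs.2.trans t.2.2⟩) fun s _ => ?_).trans ?_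
    · simp only [q, Pi.sub_apply, add_sub_add_left_eq_sub, IccExtend_apply]
      refine (abs_trunc_sq_sub hR _ _).trans ?_
      gcongr
      rw [← Real.dist_eq]
      exact ContinuousMap.dist_apply_le_dist _
    · simp [mul_div_right_comm]
  let f := ContractingWith.fixedPoint T hT
  have hf : T f = f := hT.fixedPoint_isFixedPt
  let r : ℝ → ℝ := linSol κ (q f) a y₀
  have hrf : ∀ t, ∀ ht : t ∈ Icc a b, r t = f ⟨t, ht⟩ := fun t ht => by
    conv_rhs => rw [← hf]
    rfl
  have hrR : ∀ t ∈ Icc a b, |r t| ≤ R := by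
    intro t ht
    refine (abs_linSol_le_rel (M := M + R ^ 2 / k) hκ (hq f) ht.1 (by positivity)
      (fun s hs => hκk s ⟨hs.1, hs.2.trans ht.2⟩) fun s hs => ?_).trans (le_trans ?_ hsmall)
    · have hκs := hκk s ⟨hs.1, hs.2.trans ht.2⟩
      refine (abs_add_le _ _).trans ?_
      rw [add_mul]
      refine add_le_add (heM s ⟨hs.1, hs.2.trans ht.2⟩) ?_
      rw [abs_pow]
      calc |trunc R (IccExtend hab f s)| ^ 2 ≤ R ^ 2 := by gcongr; exact abs_trunc_le hR _
        _ = R ^ 2 / k * k := by field_simp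
        _ ≤ R ^ 2 / k * κ s := by gcongr
    · rw [add_assoc]
      gcongr
      refine mul_le_of_le_one_right (abs_nonneg _) (Real.exp_le_one_iff.2 ?_)
      nlinarith [ht.1]
  have hqr : ∀ t ∈ Icc a b, q f t = e t + r t ^ 2 := by
    intro t ht
    simp only [q, IccExtend_of_mem hab f ht, ← hrf t ht, trunc_of_abs_le (hrR t ht)]
  refine ⟨r, continuous_linSol hκ (hq f) a y₀, linSol_self _ _ _ _, hrR, ?_, ?_⟩
  · intro t ht
    show linSol κ (q f) a y₀ t = _
    simp only [linSol]
    congr 2
    refine intervalIntegral.integral_congr fun s hs => ?_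
    rw [uIcc_of_le ht.1] at hs
    simp [hqr s ⟨hs.1, hs.2.trans ht.2⟩]
  · intro t ht
    refine (hasDerivAt_linSol hκ (hq f) a y₀ t).congr_deriv ?_
    rw [hqr t ht]; ring

/-- A small solution of the Riccati equation with residual at most `E`. -/
theorem exists_riccati (hab : a ≤ b) (hκ : Continuous κ) (he : Continuous e) (hk : 0 < k) {R : ℝ}
    (hκk : ∀ s ∈ Icc a b, k ≤ κ s) (heE : ∀ s ∈ Icc a b, |e s| ≤ E)
    (hR : 0 ≤ R) (hsmall : |y₀| + (E + R ^ 2) / k ≤ R) (hRk : 2 * R < k) :
    ∃ r : ℝ → ℝ, Continuous r ∧ r a = y₀ ∧ (∀ t ∈ Icc a b, |r t| ≤ R) ∧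
      (∀ t ∈ Icc a b, r t = linSol κ (fun s => e s + r s ^ 2) a y₀ t) ∧
      ∀ t ∈ Icc a b, HasDerivAt r (-κ t * r t - e t - r t ^ 2) t := by
  have hE : 0 ≤ E := (abs_nonneg _).trans (heE a (left_mem_Icc.2 hab))
  refine exists_riccati_rel (M := E / k) hab hκ he hk hκk (fun s hs => (heE s hs).trans ?_)
    (div_nonneg hE hk.le) hR (by rwa [add_assoc, ← add_div]) hRk
  calc E = E / k * k := by field_simp
    _ ≤ E / k * κ s := mul_le_mul_of_nonneg_left (hκk s hs) (div_nonneg hE hk.le)

/-- Lipschitz dependence and second-order accuracy of the linearisation. -/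
theorem riccati_sub_le {e' r r' : ℝ → ℝ} {y₁ R D : ℝ} (hab : a ≤ b) (hκ : Continuous κ)
    (he : Continuous e) (he' : Continuous e') (hr : Continuous r) (hr' : Continuous r')
    (hk : 0 < k) (hκk : ∀ s ∈ Icc a b, k ≤ κ s) (hRk : 2 * R < k)
    (hrR : ∀ t ∈ Icc a b, |r t| ≤ R) (hrR' : ∀ t ∈ Icc a b, |r' t| ≤ R)
    (h : ∀ t ∈ Icc a b, r t = linSol κ (fun s => e s + r s ^ 2) a y₀ t)
    (h' : ∀ t ∈ Icc a b, r' t = linSol κ (fun s => e' s + r' s ^ 2) a y₁ t)
    (hD : ∀ t ∈ Icc a b, |e t - e' t| ≤ D) :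
    ∀ t ∈ Icc a b, |r t - r' t| ≤ (|y₀ - y₁| + D / k) / (1 - 2 * R / k) ∧
      |(r t - linSol κ e a y₀ t) - (r' t - linSol κ e' a y₁ t)|
        ≤ 2 * R / k * ((|y₀ - y₁| + D / k) / (1 - 2 * R / k)) := by
  obtain ⟨t₀, ht₀, hmax⟩ := isCompact_Icc.exists_isMaxOn (nonempty_Icc.2 hab)
    ((hr.sub hr').abs.continuousOn)
  set M := |r t₀ - r' t₀| with hM
  have hle : ∀ s ∈ Icc a b, |r s - r' s| ≤ M := fun s hs => hmax hs
  have hR0 : 0 ≤ R := (abs_nonneg _).trans (hrR a (left_mem_Icc.2 hab))
  have hsq : ∀ s ∈ Icc a b, |r s ^ 2 - r' s ^ 2| ≤ 2 * R * M := by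
    intro s hs
    rw [sq_sub_sq, abs_mul]
    refine mul_le_mul ((abs_add_le _ _).trans ?_) (hle s hs) (abs_nonneg _) (by linarith)
    linarith [hrR s hs, hrR' s hs]
  have key : ∀ t ∈ Icc a b, |(r t - linSol κ e a y₀ t) - (r' t - linSol κ e' a y₁ t)|
      ≤ 2 * R / k * M := by
    intro t ht
    have c1 : Continuous fun s => e s + r s ^ 2 := he.add (hr.pow 2)
    have c2 : Continuous fun s => e' s + r' s ^ 2 := he'.add (hr'.pow 2)
    have e1 : (r t - linSol κ e a y₀ t) - (r' t - linSol κ e' a y₁ t)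
        = linSol κ (fun s => r s ^ 2 - r' s ^ 2) a 0 t := by
      rw [h t ht, h' t ht, linSol_sub hκ c1 he, linSol_sub hκ c2 he']
      simp only [add_sub_cancel_left, sub_self]
      rw [linSol_sub (e := fun s => r s ^ 2) (e' := fun s => r' s ^ 2) hκ (hr.pow 2) (hr'.pow 2)]
      simp
    rw [e1]
    refine (abs_linSol_le (E := 2 * R * M) hκ ((hr.pow 2).sub (hr'.pow 2)) hk ht.1
      (fun s hs => hκk s ⟨hs.1, hs.2.trans ht.2⟩) (fun s hs => hsq s ⟨hs.1, hs.2.trans ht.2⟩)).trans ?_
    simp [mul_div_right_comm]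
  have hlin : |linSol κ e a y₀ t₀ - linSol κ e' a y₁ t₀| ≤ |y₀ - y₁| + D / k := by
    rw [linSol_sub hκ he he']
    refine (abs_linSol_le (E := D) hκ (he.sub he') hk ht₀.1
      (fun s hs => hκk s ⟨hs.1, hs.2.trans ht₀.2⟩) (fun s hs => hD s ⟨hs.1, hs.2.trans ht₀.2⟩)).trans ?_
    gcongr
    refine mul_le_of_le_one_right (abs_nonneg _) (Real.exp_le_one_iff.2 ?_)
    nlinarith [ht₀.1]
  have hpos : 0 < 1 - 2 * R / k := by
    rw [sub_pos, div_lt_one hk]; exact hRk
  have hM' : M ≤ (|y₀ - y₁| + D / k) / (1 - 2 * R / k) := by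
    rw [le_div_iff₀ hpos]
    have : M ≤ 2 * R / k * M + (|y₀ - y₁| + D / k) := by
      refine le_trans ?_ (add_le_add (key t₀ ht₀) hlin)
      refine le_trans (le_of_eq ?_) (abs_add_le _ _)
      rw [hM]; congr 1; ring
    nlinarith
  exact fun t ht => ⟨(hle t ht).trans hM', (key t ht).trans
    (mul_le_mul_of_nonneg_left hM' (by positivity))⟩

/-! ### The triangular system -/

/-- Slope deviation with value `W` at `a`. -/
def devSol (c z : ℝ → ℝ) (a W t : ℝ) : ℝ := W * Real.exp (-prim (fun s => c s + z s) a t)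

/-- Solution with value `U` at `b` and deviation `W` at `a`. -/
def uSol (c z : ℝ → ℝ) (a b U W t : ℝ) : ℝ :=
  Real.exp (prim z b t) * (U + ∫ s in b..t, Real.exp (-prim z b s) * devSol c z a W s)

variable {c z : ℝ → ℝ}

@[simp] theorem devSol_self (c z : ℝ → ℝ) (a W : ℝ) : devSol c z a W a = W := by simp [devSol]

@[simp] theorem uSol_self (c z : ℝ → ℝ) (a b U W : ℝ) : uSol c z a b U W b = U := by simp [uSol]

theorem hasDerivAt_devSol (hc : Continuous c) (hz : Continuous z) (a W t : ℝ) :
    HasDerivAt (devSol c z a W) (-(c t + z t) * devSol c z a W t) t := by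
  refine (((hasDerivAt_prim (κ := fun s => c s + z s) (hc.add hz) a t).neg.exp).const_mul W).congr_deriv ?_
  simp only [devSol, Pi.neg_apply]
  ring

theorem continuous_devSol (hc : Continuous c) (hz : Continuous z) (a W : ℝ) :
    Continuous (devSol c z a W) :=
  continuous_iff_continuousAt.2 fun t => (hasDerivAt_devSol hc hz a W t).continuousAt

theorem hasDerivAt_uSol (hc : Continuous c) (hz : Continuous z) (a b U W t : ℝ) :
    HasDerivAt (uSol c z a b U W) (z t * uSol c z a b U W t + devSol c z a W t) t := by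
  have hi : Continuous fun s => Real.exp (-prim z b s) * devSol c z a W s :=
    (Real.continuous_exp.comp (continuous_prim hz b).neg).mul (continuous_devSol hc hz a W)
  refine ((hasDerivAt_prim hz b t).exp.mul
    (((hi.integral_hasStrictDerivAt b t).hasDerivAt).const_add U)).congr_deriv ?_
  have : Real.exp (prim z b t) * Real.exp (-prim z b t) = 1 := by
    rw [← Real.exp_add]; simp
  simp only [uSol]
  linear_combination (devSol c z a W t) * this

/-- The second order equation. -/
theorem hasDerivAt_deriv_uSol (hc : Continuous c) (hz : Continuous z) {l z' : ℝ} {a b U W t : ℝ}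
    (hzd : HasDerivAt z z' t) (hric : z' + z t ^ 2 + c t * z t = l) :
    HasDerivAt (fun s => z s * uSol c z a b U W s + devSol c z a W s)
      (l * uSol c z a b U W t - c t * (z t * uSol c z a b U W t + devSol c z a W t)) t := by
  refine ((hzd.mul (hasDerivAt_uSol hc hz a b U W t)).add
    (hasDerivAt_devSol hc hz a W t)).congr_deriv ?_
  linear_combination (uSol c z a b U W t) * hric

/-- With `z = ρ₀ + r` the small Riccati equation is the Riccati equation of `z`. -/
theorem riccati_shift {ρ r : ℝ → ℝ} {t ρ' l : ℝ} (hρ : HasDerivAt ρ ρ' t)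
    (hr : HasDerivAt r (-(2 * ρ t + c t) * r t - (ρ' + ρ t ^ 2 + c t * ρ t - l) - r t ^ 2) t) :
    ∃ z', HasDerivAt (fun s => ρ s + r s) z' t ∧
      z' + (ρ t + r t) ^ 2 + c t * (ρ t + r t) = l :=
  ⟨_, hρ.add hr, by ring⟩

/-- Scattering coefficient `u_left / u_right` with zero deviation. -/
def coefQ (z : ℝ → ℝ) (a b : ℝ) : ℝ := Real.exp (-prim z a b)

/-- Scattering coefficient `u_left / w_left` with zero right value. -/
def coefB (c z : ℝ → ℝ) (a b : ℝ) : ℝ :=
  -∫ s in a..b, Real.exp (-prim z a s) * Real.exp (-prim (fun s => c s + z s) a s)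

/-- Scattering coefficient `w_right / w_left`. -/
def coefD (c z : ℝ → ℝ) (a b : ℝ) : ℝ := Real.exp (-prim (fun s => c s + z s) a b)

theorem uSol_left (hz : Continuous z) (a b U W : ℝ) :
    uSol c z a b U W a = coefQ z a b * U + coefB c z a b * W := by
  have hs : ∀ s, prim z b s = prim z a s - prim z a b := fun s => by
    simp only [prim]
    rw [intervalIntegral.integral_interval_sub_left (hz.intervalIntegrable _ _)
      (hz.intervalIntegrable _ _)]
  have h1 : ∫ s in b..a, Real.exp (-prim z b s) * devSol c z a W s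
      = Real.exp (prim z a b) * (coefB c z a b * W) := by
    rw [intervalIntegral.integral_symm, coefB, neg_mul, mul_neg,
      ← intervalIntegral.integral_mul_const, ← intervalIntegral.integral_const_mul]
    congr 1
    refine intervalIntegral.integral_congr fun s _ => ?_
    simp only [devSol, hs s, neg_sub, Real.exp_sub, Real.exp_neg]
    field_simp
  have he : Real.exp (-prim z a b) * Real.exp (prim z a b) = 1 := by rw [← Real.exp_add]; simp
  simp only [uSol, h1, hs a, prim_self, zero_sub, coefQ]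
  linear_combination (coefB c z a b * W) * he

theorem devSol_right (c z : ℝ → ℝ) (a b W : ℝ) : devSol c z a W b = coefD c z a b * W := by
  simp [devSol, coefD, mul_comm]

theorem coefQ_pos (z : ℝ → ℝ) (a b : ℝ) : 0 < coefQ z a b := Real.exp_pos _

theorem coefQ_le (hz : Continuous z) (hab : a ≤ b) (h : ∀ t ∈ Icc a b, k ≤ z t) :
    coefQ z a b ≤ Real.exp (-(k * (b - a))) := by
  have := prim_le_prim (a := a) hz h hab
  simp only [prim_self, add_zero] at this
  exact Real.exp_le_exp.2 (by linarith)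

theorem le_coefQ (hz : Continuous z) (hab : a ≤ b) (h : ∀ t ∈ Icc a b, z t ≤ k) :
    Real.exp (-(k * (b - a))) ≤ coefQ z a b := by
  have := prim_le_prim (a := a) (κ := fun t => -z t) hz.neg (k := -k)
    (fun t ht => neg_le_neg (h t ht)) hab
  simp only [prim, intervalIntegral.integral_neg, intervalIntegral.integral_same,
    add_zero, neg_mul, neg_le_neg_iff] at this
  exact Real.exp_le_exp.2 (neg_le_neg this)

theorem coefD_pos (c z : ℝ → ℝ) (a b : ℝ) : 0 < coefD c z a b := Real.exp_pos _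

theorem coefD_le (hc : Continuous c) (hz : Continuous z) (hab : a ≤ b)
    (h : ∀ t ∈ Icc a b, k ≤ c t + z t) : coefD c z a b ≤ Real.exp (-(k * (b - a))) := by
  have := prim_le_prim (a := a) (κ := fun s => c s + z s) (hc.add hz) h hab
  simp only [prim_self, add_zero] at this
  exact Real.exp_le_exp.2 (by linarith [this])

theorem abs_coefB_le (hc : Continuous c) (hz : Continuous z) (hab : a ≤ b) (hk : 0 < k)
    (h : ∀ t ∈ Icc a b, k ≤ c t + 2 * z t) : |coefB c z a b| ≤ 1 / k := by
  have hp : Continuous fun s => c s + 2 * z s := by fun_prop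
  have hsum : ∀ s, prim z a s + prim (fun s => c s + z s) a s = prim (fun s => c s + 2 * z s) a s := by
    intro s
    simp only [prim]
    rw [← intervalIntegral.integral_add (f := z) (g := fun s => c s + z s)
      (hz.intervalIntegrable _ _) ((hc.add hz).intervalIntegrable _ _)]
    congr 1; ext x; ring
  have hl := abs_linSol_le (e := fun _ => (1 : ℝ)) (y₀ := 0) (E := 1) hp continuous_const hk hab h
    (fun s _ => by simp)
  rw [coefB, abs_neg]
  simp only [← Real.exp_add, ← neg_add, hsum]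
  have hi : ∀ s ∈ Icc a b, 0 ≤ Real.exp (-prim (fun s => c s + 2 * z s) a s) :=
    fun s _ => (Real.exp_pos _).le
  rw [abs_of_nonneg (intervalIntegral.integral_nonneg hab hi)]
  calc ∫ s in a..b, Real.exp (-prim (fun s => c s + 2 * z s) a s)
      ≤ ∫ s in a..b, Real.exp (-(k * (s - a))) := by
        refine intervalIntegral.integral_mono_on hab ?_ ?_ fun s hs => ?_
        · exact (Real.continuous_exp.comp (continuous_prim hp a).neg).intervalIntegrable _ _
        · exact (by fun_prop : Continuous fun s => Real.exp (-(k * (s - a)))).intervalIntegrable _ _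
        · have := prim_le_prim (a := a) hp (fun t ht => h t ⟨ht.1, ht.2.trans hs.2⟩) hs.1
          simp only [prim_self, add_zero] at this
          exact Real.exp_le_exp.2 (by linarith)
    _ = (1 - Real.exp (-(k * (b - a)))) / k := by
        rw [intervalIntegral.integral_eq_sub_of_hasDerivAt
          (f := fun s => -(Real.exp (-(k * (s - a)))) / k) (fun s _ => ?_)
          ((by fun_prop : Continuous fun s => Real.exp (-(k * (s - a)))).intervalIntegrable _ _)]
        · simp; ring
        · refine ((((hasDerivAt_id s).sub_const a).const_mul k).neg.exp.neg.div_const k).congr_deriv ?_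
          field_simp
          simp
    _ ≤ 1 / k := by
        gcongr
        linarith [Real.exp_pos (-(k * (b - a)))]

theorem coefQ_add (hz : Continuous z) (a b d : ℝ) : coefQ z a d = coefQ z a b * coefQ z b d := by
  simp only [coefQ, ← Real.exp_add, prim, ← neg_add]
  rw [intervalIntegral.integral_add_adjacent_intervals (hz.intervalIntegrable _ _)
    (hz.intervalIntegrable _ _)]

/-- Log-Lipschitz dependence of `coefQ` on the slope. -/
theorem abs_prim_sub_le {z' : ℝ → ℝ} {D : ℝ} (hz : Continuous z) (hz' : Continuous z') (hab : a ≤ b)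
    (h : ∀ t ∈ Icc a b, |z t - z' t| ≤ D) : |prim z a b - prim z' a b| ≤ D * (b - a) := by
  simp only [prim]
  rw [← intervalIntegral.integral_sub (hz.intervalIntegrable _ _) (hz'.intervalIntegrable _ _),
    ← Real.norm_eq_abs]
  refine (intervalIntegral.norm_integral_le_of_norm_le_const (C := D) fun t ht => ?_).trans
    (by rw [abs_of_nonneg (sub_nonneg.2 hab)])
  rw [uIoc_of_le hab] at ht
  exact h t (Ioc_subset_Icc_self ht)

/-- A slope of the second order equation near a reference `ρ` with residual `E`. -/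
theorem exists_slope {ρ ρ' l : ℝ → ℝ} {R : ℝ} (hab : a ≤ b) (hc : Continuous c) (hl : Continuous l)
    (hρ : ∀ t, HasDerivAt ρ (ρ' t) t) (hρc : Continuous ρ') (hk : 0 < k)
    (hκ : ∀ t ∈ Icc a b, k ≤ 2 * ρ t + c t)
    (hE : ∀ t ∈ Icc a b, |ρ' t + ρ t ^ 2 + c t * ρ t - l t| ≤ E)
    (hR : 0 ≤ R) (hsmall : |y₀ - ρ a| + (E + R ^ 2) / k ≤ R) (hRk : 2 * R < k) :
    ∃ z : ℝ → ℝ, Continuous z ∧ z a = y₀ ∧ (∀ t ∈ Icc a b, |z t - ρ t| ≤ R) ∧
      ∀ t ∈ Icc a b, ∃ z', HasDerivAt z z' t ∧ z' + z t ^ 2 + c t * z t = l t := by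
  have hρ0 : Continuous ρ := continuous_iff_continuousAt.2 fun t => (hρ t).continuousAt
  obtain ⟨r, hr, hra, hrR, -, hrd⟩ := exists_riccati (κ := fun t => 2 * ρ t + c t)
    (e := fun t => ρ' t + ρ t ^ 2 + c t * ρ t - l t) (y₀ := y₀ - ρ a) hab (by fun_prop)
    (by fun_prop) hk hκ hE hR hsmall hRk
  exact ⟨fun t => ρ t + r t, hρ0.add hr, by simp [hra], fun t ht => by simpa using hrR t ht,
    fun t ht => riccati_shift (hρ t) (hrd t ht)⟩

end

end Vale.Agent.P225.Ode
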